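import Crest.Agent.X212.Cys97.Defs

/-!
# Row 212, CYS-CAC (helper9): the Caccioppoli estimate `L² → L²₂`
-/

set_option autoImplicit false
set_option linter.unusedSectionVars false
noncomputable section
open scoped Manifold ContDiff Topology InnerProductSpace
open MeasureTheory Set Function Filter

namespace Crest.Agent.X212.Cac9
open An Sob92 Prm93 Mon62 Cys97
open Ell97 (UB)
open Wrd81 (lap1 cov md)

theorem ext {S G H : Type} [AddCommGroup S] [Module ℝ S] [NormedAddCommGroup G]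
    [InnerProductSpace ℝ G] [CompleteSpace G] [NormedAddCommGroup H] [NormedSpace ℝ H]
    [CompleteSpace H] (f : S →ₗ[ℝ] H) (e : S →ₗ[ℝ] G) {C : ℝ} (hC : 0 ≤ C)
    (h : ∀ x, ‖f x‖ ≤ C * ‖e x‖) : ∃ Γ : G →L[ℝ] H, ‖Γ‖ ≤ C ∧ ∀ x, Γ (e x) = f x := by
  let K := (LinearMap.range e).topologicalClosure
  let e' : S →ₗ[ℝ] K := e.codRestrict K fun x =>
    (LinearMap.range e).le_topologicalClosure ⟨x, rfl⟩
  have hd : DenseRange e' := fun y => by
    rw [closure_subtype, ← range_comp]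
    exact y.2
  refine ⟨f.extendOfNorm e' ∘L K.orthogonalProjectionOnto,
    (ContinuousLinearMap.opNorm_comp_le _ _).trans ?_, fun x => ?_⟩
  · simpa using mul_le_mul (LinearMap.opNorm_extendOfNorm_le hd hC h)
      K.orthogonalProjectionOnto_norm_le (by positivity) hC
  · exact (congrArg _ (K.orthogonalProjectionOnto_mem_subspace_eq_self (e' x))).trans
      (LinearMap.extendOfNorm_eq hd ⟨C, h⟩ x)

variable {E : Type} [NormedAddCommGroup E] [NormedSpace ℝ E] [FiniteDimensional ℝ E]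
  [MeasurableSpace E] [BorelSpace E]
  {HM : Type} [TopologicalSpace HM] {I : ModelWithCorners ℝ E HM} [I.Boundaryless]
  {M : Type} [TopologicalSpace M] [ChartedSpace HM M] [IsManifold I ∞ M]
  [MeasurableSpace M] [T2Space M] [BorelSpace M] [SecondCountableTopology M] {ι : Type} [Fintype ι]
  {J V : Type} [NormedAddCommGroup V] [InnerProductSpace ℝ V]
  {P F : J → Fr I M ι} {A : J → ι → M → V →L[ℝ] V} {S : ι → ι → J → M → ℝ} {θ θ' : J → M → ℝ}

theorem bdd {N : Type} [NormedAddCommGroup N] [NormedSpace ℝ N] {κ : Type} [Fintype κ]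
    {P : J → Pre I M ι} {f : κ → J → M → N} (h : ∀ k, UB P (f k)) :
    ∃ B, 0 ≤ B ∧ ∀ k i x, ‖f k i x‖ ≤ B :=
  let ⟨C, h⟩ := Ell97.UB.unif h
  ⟨|C 0|, abs_nonneg _, fun k i => CB_bound (CB_abs ((h i k).2 0))⟩

theorem D_sq (P : Pre I M ι) {θ : M → ℝ} (h : Sm I θ) (a : ι) :
    P.D a (fun z => θ z * θ z) = fun z => 2 * (θ z * P.D a θ z) := funext fun z =>
  (dv_smul (md h z) (md h z)).trans (by simp only [Pre.D_def, smul_eq_mul]; ring)

theorem ts_sq (θ : M → ℝ) (u : M → V) : tsupport (fun z => (θ z * θ z) • u z) ⊆ tsupport θ :=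
  closure_mono fun z hz h => hz (by simp [h])

/-- the equation for `θ² x` -/
theorem eqn (hm : ∀ i, Mix (P i).toPre (F i).toPre fun a b => S a b i)
    (hS : ∀ a b, UB (fun i => (P i).toPre) (S a b))
    (hd : ∀ a, UB (fun i => (P i).toPre) fun i => (F i).dv a)
    (hA : ∀ a, UB (fun i => (P i).toPre) fun i => A i a) (hθ : UB (fun i => (P i).toPre) θ)
    (h1 : ∀ i, ∀ x ∈ tsupport (θ i), θ' i x = 1) : ∃ C, 0 ≤ C ∧ ∀ i (x : M → V), Sm I x → ∀ z,
      ‖lap1 (F i) (A i) (fun z => (θ i z * θ i z) • x z) z‖ ^ 2 ≤ C * (‖θ' i z • lap1 (F i) (A i) x z‖ ^ 2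
        + ∑ b, ‖θ i z • (P i).D b x z‖ ^ 2 + ‖θ' i z • x z‖ ^ 2) := by
  have hD : ∀ {f : J → M → ℝ}, UB (fun i => (P i).toPre) f → ∀ a,
      UB (fun i => (P i).toPre) fun i => (F i).D a (f i) := fun hf a => by
    simp only [(hm _).D]
    exact .sum fun b => (hS a b).smul (hf.D b)
  have h2 := hθ.smul hθ
  obtain ⟨B1, b1, p1⟩ := bdd fun _ : Unit => h2
  obtain ⟨B2, b2, p2⟩ := bdd fun b =>
    Ell97.UB.sum fun a => ((Ell97.UB.const (4 : ℝ)).smul (hD hθ a)).smul (hS a b)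
  obtain ⟨B3, b3, p3⟩ := bdd fun _ : Unit =>
    (Ell97.UB.sum fun a => ((Ell97.UB.const (2 : ℝ)).smul (hD h2 a)).smul (hA a)).add
      ((Ell97.UB.sum fun a => (hD (hD h2 a) a).add ((hd a).smul (hD h2 a))).smul
        (.const (ContinuousLinearMap.id ℝ V)))
  have n0 : (0 : ℝ) ≤ Fintype.card ι := Nat.cast_nonneg _
  refine ⟨3 * (B1 ^ 2 + B2 ^ 2 * Fintype.card ι + B3 ^ 2), by positivity, fun i x hx z => ?_⟩
  by_cases hz : z ∈ tsupport (θ i)
  · have e := Wrd81.lap1_smul (F i) (fun a => (hA a).sm i) (h2.sm i) hx z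
    have e1 := (norm_smul _ (lap1 (F i) (A i) x z)).trans_le
      (mul_le_mul_of_nonneg_right (p1 () i z) (norm_nonneg _))
    have e2 := (norm_sum_le _ _).trans (Finset.sum_le_sum fun b (_ : b ∈ Finset.univ) =>
      (norm_smul _ (θ i z • (P i).D b x z)).trans_le
        (mul_le_mul_of_nonneg_right (p2 b i z) (norm_nonneg _)))
    have e3 := ContinuousLinearMap.le_of_opNorm_le _ (p3 () i z) (x z)
    have e4 := sq_sum_le_card_mul_sum_sq (s := Finset.univ) (f := fun b => ‖θ i z • (P i).D b x z‖)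
    have e5 := (norm_sub_le _ _).trans (add_le_add ((norm_sub_le _ _).trans (add_le_add e1 e2)) e3)
    rw [← Finset.mul_sum] at e5
    simp only [smul_eq_mul] at e e5
    have e6 := (congrArg norm (e.trans ?_)).trans_le e5
    swap
    · simp only [cov, (hm i).D _ x, D_sq _ (hθ.sm i), add_apply, smul_apply, sum_apply,
        ContinuousLinearMap.id_apply, smul_add, Finset.sum_add_distrib, Finset.smul_sum, smul_smul,
        Finset.sum_mul, Finset.sum_smul]
      rw [Finset.sum_comm, ← sub_sub, ← sub_sub]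
      congr 3
      exact Finset.sum_congr rfl fun _ _ => Finset.sum_congr rfl fun _ _ => by congr 1; ring
    simp only [h1 i z hz, one_smul, Finset.card_univ] at e4 ⊢
    refine (pow_le_pow_left₀ (norm_nonneg _) e6 2).trans ?_
    have q : 0 ≤ ∑ b, ‖θ i z • (P i).D b x z‖ ^ 2 := by positivity
    generalize ∑ b, ‖θ i z • (P i).D b x z‖ ^ 2 = t at *
    generalize ∑ b, ‖θ i z • (P i).D b x z‖ = s at *
    generalize ‖lap1 (F i) (A i) x z‖ = p
    generalize ‖x z‖ = r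
    have q1 := mul_le_mul_of_nonneg_left e4 (sq_nonneg B2)
    have q2 : 0 ≤ B2 ^ 2 * Fintype.card ι := by positivity
    nlinarith [sq_nonneg (B1 * p - B2 * s), sq_nonneg (B1 * p - B3 * r), sq_nonneg (B2 * s - B3 * r),
      mul_nonneg (sq_nonneg B1) q, mul_nonneg (sq_nonneg B3) q, sq_nonneg (B1 * r), sq_nonneg (B3 * p),
      mul_nonneg q2 (sq_nonneg p), mul_nonneg q2 (sq_nonneg r)]
  · have k := fun h => hz (ts_sq (θ i) x h)
    have k1 := fun a h => k (Wrd81.tsupport_cov (F i).toPre (A i) _ a h)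
    have k2 := fun a h => k1 a (Wrd81.tsupport_cov (F i).toPre (A i) _ a h)
    simp only [lap1, image_eq_zero_of_notMem_tsupport k, image_eq_zero_of_notMem_tsupport (k1 _),
      image_eq_zero_of_notMem_tsupport (k2 _), smul_zero, add_zero, Finset.sum_const_zero, sub_zero,
      norm_zero, zero_pow two_ne_zero]
    positivity

/-- the gradient estimate -/
theorem grad {C : ℕ → ℝ} (hP : ∀ i, (P i).Tame C) (hθ : UB (fun i => (P i).toPre) θ)
    (hθ' : UB (fun i => (P i).toPre) θ') (h1 : ∀ i, ∀ x ∈ tsupport (θ i), θ' i x = 1) {ε : ℝ}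
    (hε : 0 < ε) : ∃ C, 0 ≤ C ∧ ∀ i (x : M → V), Sm I x → HasCompactSupport x → ∀ b,
      N2 (P i).toPre 0 (fun z => θ i z • (P i).D b x z) ≤
        ε * N2 (P i).toPre 1 ((P i).D b fun z => (θ i z * θ i z) • x z) +
          C * N2 (P i).toPre 0 fun z => θ' i z • x z := by
  have hd : ∀ a, UB (fun i => (P i).toPre) fun i => (P i).dv a := fun a => ⟨C, fun i => (hP i).dv a⟩
  have h2 := hθ.smul hθ
  obtain ⟨B1, b1, p1⟩ := bdd hd
  obtain ⟨B2, b2, p2⟩ := bdd fun b => hθ.D b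
  obtain ⟨B3, b3, p3⟩ := bdd fun b => ((h2.D b).D b).add ((hd b).smul (h2.D b))
  simp only [smul_eq_mul] at h2 p3
  refine ⟨2 * (ε⁻¹ * (1 + B1 ^ 2) + B3 + 2 * B2 ^ 2), by positivity, fun i x hx hc b => ?_⟩
  have s2 := h2.sm i
  have su : Sm I fun z => (θ i z * θ i z) • x z := s2.smul hx
  have cu : HasCompactSupport fun z => (θ i z * θ i z) • x z := hcs_bil_right (.lsmul ℝ ℝ) _ hc
  have sD := (P i).sm_D hx b
  have sw : Sm I fun z => (θ i z * θ i z) • (P i).D b x z := s2.smul sD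
  have ew : (fun z => (θ i z * θ i z) • (P i).D b x z) = (P i).D b (fun z => (θ i z * θ i z) • x z) -
      fun z => (P i).D b (fun z => θ i z * θ i z) z • x z := funext fun z =>
    eq_sub_of_add_eq' (dv_smul (md s2 z) (md hx z)).symm
  set u := fun z => (θ i z * θ i z) • x z
  have s1 := (P i).sm_D su b
  have c1 := (P i).hcs_D cu b
  have I0 : ∀ {v : M → V}, Sm I v → HasCompactSupport v → Integrable (fun z => ‖v z‖ ^ 2) (P i).μ :=
    fun hv hc => int_sq (FL_of_hcs (F := (P i).toPre) 0 hv hc)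
  have i1 := (I0 s1 c1).const_mul (ε / 2)
  have i2 := (I0 ((P i).sm_D s1 b) ((P i).hcs_D c1 b)).const_mul (ε / 2)
  have i3 := (I0 (v := fun z => θ i z • (P i).D b x z) ((hθ.sm i).smul sD)
    (hcs_bil_right (.lsmul ℝ ℝ) _ ((P i).hcs_D hc b))).const_mul (1 / 2)
  have i4 := (I0 (v := fun z => θ' i z • x z) ((hθ'.sm i).smul hx)
    (hcs_bil_right (.lsmul ℝ ℝ) _ hc)).const_mul (ε⁻¹ * (1 + B1 ^ 2) + B3 + 2 * B2 ^ 2)
  have k1 : N2 (P i).toPre 0 ((P i).D b u) + N2 (P i).toPre 0 ((P i).D b ((P i).D b u)) ≤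
      N2 (P i).toPre 1 ((P i).D b u) := add_le_add le_rfl (Finset.single_le_sum
    (f := fun a => N2 (P i).toPre 0 ((P i).D a ((P i).D b u))) (fun _ _ => n2_nonneg 0 _)
      (Finset.mem_univ b))
  have k2 := integral_mono ((P i).integrable_inner hx.continuous hc (((P i).sm_D sw b).continuous.neg.sub
    (((P i).dv_sm b).continuous.smul sw.continuous))) (((i1.add i2).add i3).add i4) fun z => ?_
  · have k3 := Ell97.ibp_fun (P i) b hx hc sw
    rw [integral_add' ((i1.add i2).add i3) i4, integral_add' (i1.add i2) i3, integral_add' i1 i2] at k2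
    simp only [Pi.sub_apply, Pi.neg_apply, Pi.smul_apply', integral_const_mul, ← k3] at k2
    have k4 : N2 (P i).toPre 0 (fun z => θ i z • (P i).D b x z) =
        ∫ z, ⟪(P i).D b x z, (θ i z * θ i z) • (P i).D b x z⟫_ℝ ∂(P i).μ := by
      simp only [n2, real_inner_smul_right, real_inner_self_eq_norm_sq, norm_smul, mul_pow,
        Real.norm_eq_abs, sq_abs, sq (θ i _)]
    rw [← k4] at k2
    simp only [n2] at k1 k2 ⊢
    nlinarith
  simp only [Pi.add_apply, Pi.sub_apply, Pi.neg_apply, Pi.smul_apply']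
  by_cases hz : z ∈ tsupport (θ i)
  · have sg := (P i).sm_D s2 b
    have e : -(P i).D b (fun z => (θ i z * θ i z) • (P i).D b x z) z -
        (P i).dv b z • (θ i z * θ i z) • (P i).D b x z = -(P i).D b ((P i).D b u) z -
        (P i).dv b z • (P i).D b u z + ((P i).D b ((P i).D b fun z => θ i z * θ i z) z +
          (P i).dv b z * (P i).D b (fun z => θ i z * θ i z) z) • x z +
        (2 : ℝ) • (P i).D b (θ i) z • θ i z • (P i).D b x z := by
      rw [congrFun ew z, ew, Pre.D_def, dv_sub (md s1 z) (md (Wrd81.sm_smul sg hx) z),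
        dv_smul (md sg z) (md hx z)]
      simp only [← Pre.D_def, Pi.sub_apply]
      rw [congrFun (D_sq _ (hθ.sm i) b) z]
      module
    have e1 := (norm_smul _ ((P i).D b u z)).trans_le
      (mul_le_mul_of_nonneg_right (p1 b i z) (norm_nonneg _))
    have e2 := (norm_smul _ (θ i z • (P i).D b x z)).trans_le
      (mul_le_mul_of_nonneg_right (p2 b i z) (norm_nonneg _))
    have e3 := (norm_smul _ (x z)).trans_le (mul_le_mul_of_nonneg_right (p3 b i z) (norm_nonneg _))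
    have e4 := (norm_add_le _ _).trans (add_le_add ((norm_add_le _ _).trans (add_le_add
      ((norm_sub_le _ _).trans (add_le_add (norm_neg ((P i).D b ((P i).D b u) z)).le e1)) e3))
      ((norm_smul (2 : ℝ) _).trans_le (mul_le_mul_of_nonneg_left e2 (norm_nonneg _))))
    rw [e, h1 i z hz, one_smul]
    refine (real_inner_le_norm _ _).trans ((mul_le_mul_of_nonneg_left e4 (norm_nonneg _)).trans ?_)
    generalize ‖(P i).D b ((P i).D b u) z‖ = p
    generalize ‖(P i).D b u z‖ = q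
    generalize ‖θ i z • (P i).D b x z‖ = m
    generalize ‖x z‖ = r
    have q0 := mul_inv_cancel₀ hε.ne'
    have q1 := inv_pos.2 hε
    rw [Real.norm_two]
    generalize ε⁻¹ = δ at *
    have q2 : ∀ a c : ℝ, a * c ≤ ε / 2 * a ^ 2 + δ * c ^ 2 := fun a c => by
      have : ε / 2 * a ^ 2 + δ * c ^ 2 - a * c = δ / 2 * ((ε * a - c) ^ 2 + c ^ 2) := by
        linear_combination (a * c - ε * a ^ 2 / 2) * q0
      have : 0 ≤ δ / 2 * ((ε * a - c) ^ 2 + c ^ 2) := by positivity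
      linarith
    nlinarith [q2 p r, q2 q (B1 * r), sq_nonneg (m - 2 * B2 * r)]
  · have k := fun h => hz (ts_sq (θ i) ((P i).D b x) h)
    rw [Pre.D_def, dv_eq_zero_of_notMem k, image_eq_zero_of_notMem_tsupport k]
    simp only [neg_zero, smul_zero, sub_zero, inner_zero_right]
    positivity

/-- the a priori estimate -/
theorem apr {C : ℕ → ℝ} {K : ℝ} (hP : ∀ i, (P i).Tame C)
    (hm : ∀ i, Mix (P i).toPre (F i).toPre fun a b => S a b i)
    (hS : ∀ a b, UB (fun i => (P i).toPre) (S a b))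
    (hd : ∀ a, UB (fun i => (P i).toPre) fun i => (F i).dv a)
    (hA : ∀ a, UB (fun i => (P i).toPre) fun i => A i a) (hθ : UB (fun i => (P i).toPre) θ)
    (hθ' : UB (fun i => (P i).toPre) θ') (h1 : ∀ i, ∀ x ∈ tsupport (θ i), θ' i x = 1)
    (hK : ∀ i u, ‖u‖ ≤ K * ‖Ql (P i).toPre (F i) (A i) 0 u‖) : ∃ C, 0 ≤ C ∧ ∀ i x,
      ‖smulH (P i).toPre 2 _ (fun z => θ i z * θ i z) x‖ ^ 2 ≤
        C * (‖smulH (P i).toPre 0 _ (θ' i) (Ql (P i).toPre (F i) (A i) 0 x)‖ ^ 2 +
          ‖smulH (P i).toPre 0 _ (θ' i) (ic (P i).toPre V 2 0 x)‖ ^ 2) := by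
  obtain ⟨C1, c1, k1⟩ := eqn hm hS hd hA hθ h1
  obtain ⟨C2, c2, k2⟩ := grad (V := V) hP hθ hθ' h1 (ε := (2 * (K ^ 2 * C1 + 1))⁻¹) (by positivity)
  have n0 : (0 : ℝ) ≤ Fintype.card ι := Nat.cast_nonneg _
  refine ⟨2 * (K ^ 2 * C1) * (Fintype.card ι * C2 + 1), by positivity, fun i x => ?_⟩
  induction x using H_ind with
  | hP => exact isClosed_le (by fun_prop) (by fun_prop)
  | h x => ?_
  have sA := fun a => (hA a).sm i
  have rQ : (P i).Rep (Ql (P i).toPre (F i) (A i) 0) (lap1 (F i) (A i)) :=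
    RepT_congr (rep_QQ (act_mix (hm i) (fun a b => (hS a b).cb i) fun a => (hd a).cb i)
      ⟨fun a => rep_mulH ((hA a).cb i) (Maps.triv _), fun a => rep_mulH ((hA a).cb i) (Maps.triv _)⟩)
      fun u => funext fun _ => (sub_eq_add_neg _ _).symm
  have r2 := rep_smulH (k := 2) (p := triv M V) (f := fun z => θ i z * θ i z) ((hθ.smul hθ).cb i)
  have k3 := pow_le_pow_left₀ (norm_nonneg _) (hK i ((P i).toH 2 _ ⟨_, RepT_mem r2 x⟩)) 2
  obtain ⟨x, hx, hc, hp⟩ := x
  simp only [RepT_toH rQ, RepT_toH r2, RepT_toH (rep_smulH (hθ'.cb i)), incl_toH (Nat.zero_le _),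
    Pre.norm_toH, nrm_sq, mul_pow] at k3 ⊢
  have I0 : ∀ {f : M → ℝ} {v : M → V}, Sm I f → Sm I v → HasCompactSupport v →
      Integrable (fun z => ‖f z • v z‖ ^ 2) (P i).μ := fun hf hv hc =>
    int_sq (FL_of_hcs (F := (P i).toPre) 0 (hf.smul hv) (hcs_bil_right (.lsmul ℝ ℝ) _ hc))
  have i1 := I0 (hθ'.sm i) (Wrd81.sm_lap1 (F i) sA hx) (Wrd81.hcs_lap1 _ _ hc)
  have i2 := fun b (_ : b ∈ Finset.univ) => I0 (hθ.sm i) ((P i).sm_D hx b) ((P i).hcs_D hc b)
  have i3 := I0 (hθ'.sm i) hx hc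
  have k4 := integral_mono_of_nonneg (.of_forall fun _ => sq_nonneg _)
    (((i1.add (integrable_finsetSum _ i2)).add i3).const_mul C1) (.of_forall (k1 i x hx))
  rw [integral_const_mul, integral_add' (i1.add (integrable_finsetSum _ i2)) i3,
    integral_add' i1 (integrable_finsetSum _ i2), integral_finsetSum _ i2] at k4
  have k5 := Finset.sum_le_sum fun b (_ : b ∈ Finset.univ) => k2 i x hx hc b
  rw [Finset.sum_add_distrib, ← Finset.mul_sum, Finset.sum_const, Finset.card_univ,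
    nsmul_eq_mul] at k5
  have k6 : ∑ b, N2 (P i).toPre 1 ((P i).D b fun z => (θ i z * θ i z) • x z) ≤
      N2 (P i).toPre 2 fun z => (θ i z * θ i z) • x z := sum_n2_dv_le 1 _
  have p1 : 0 ≤ N2 (P i).toPre 2 fun z => (θ i z * θ i z) • x z := n2_nonneg _ _
  have p2 : 0 ≤ N2 (P i).toPre 0 fun z => θ' i z • lap1 (F i) (A i) x z := n2_nonneg _ _
  have k7 := k3.trans (mul_le_mul_of_nonneg_left k4 (sq_nonneg K))
  have k8 := k5.trans (add_le_add (mul_le_mul_of_nonneg_left k6 (by positivity)) le_rfl)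
  have q : 0 ≤ K ^ 2 * C1 := by positivity
  rw [← mul_assoc] at k7
  generalize K ^ 2 * C1 = L at *
  have k9 := mul_le_mul_of_nonneg_left k8 q
  have q1 : L * (2 * (L + 1))⁻¹ ≤ 1 / 2 := by
    rw [← div_eq_mul_inv, div_le_iff₀ (by positivity)]; linarith
  have q2 := mul_le_mul_of_nonneg_right q1 p1
  have q3 := mul_nonneg (mul_nonneg q (mul_nonneg n0 c2)) p2
  simp only [n2] at k7 k9 q2 q3 ⊢
  nlinarith

variable (I M ι) in
/-- **CYS-CAC** -/
theorem cac : CacStmt I M ι := by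
  intro V J _ _ _ P F C A S θ θ' K hP hm hS hd hA hθ hθ' h1 hK
  obtain ⟨C, c0, h⟩ := apr hP hm hS hd hA hθ hθ' h1 hK
  choose Γ h2 h3 using fun i => ext
    ((smulH (P i).toPre 2 (triv M V) fun z => θ i z * θ i z).toLinearMap.domRestrict
      (smulH (P i).toPre 0 _ (θ' i) ∘L Ql (P i).toPre (F i) (A i) 0).ker)
    ((smulH (P i).toPre 0 _ (θ' i) ∘L ic (P i).toPre V 2 0).toLinearMap.domRestrict _)
    (Real.sqrt_nonneg C) fun x => by
      have := h i x.1
      rw [show smulH (P i).toPre 0 _ (θ' i) (Ql (P i).toPre (F i) (A i) 0 x.1) = 0 from x.2,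
        norm_zero, zero_pow two_ne_zero, zero_add (M := ℝ)] at this
      refine abs_le_of_sq_le_sq' ?_ (by positivity) |>.2
      rw [mul_pow, Real.sq_sqrt c0]
      exact this
  exact ⟨Γ, ⟨_, h2⟩, fun i x hx => h3 i ⟨x, hx⟩⟩

end Crest.Agent.X212.Cac9
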